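import Vale.Agent.P307.R2.H732.Tx

/-!
The bound for the reflection below a face depends only on the number of its directions.
-/

set_option linter.unusedSectionVars false

universe u v w

open Set Cardinal Function

namespace Vale.Agent.P307.R2.H914

open Vale.Agent.P307.R2.H541 Vale.Agent.P307.R2.H541.PG Vale.Agent.P307.R2.H533
  Vale.Agent.P307.R2.H83 Vale.Agent.P307.R2.H732

open scoped Classical

variable {ι : Type v} {κ : Type w} {C : Type u} {M : PG C} {A : Finset ι → Set C}
  {v : Finset ι} {t : Finset κ} {τ : Cardinal.{u}}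

section reindex

variable (e : κ ↪ ι) (he : t.map e = v)

include he

theorem map_mem_ssubsets {u : Finset κ} : u.map e ∈ v.ssubsets ↔ u ∈ t.ssubsets := by
  rw [← he, Finset.mem_ssubsets, Finset.mem_ssubsets, Finset.map_ssubset_map]

theorem exists_map_of_mem {u : Finset ι} (hu : u ∈ v.ssubsets) :
    ∃ r ∈ t.ssubsets, r.map e = u := by
  have h1 : u ⊆ t.map e := by
    rw [he]
    exact (Finset.mem_ssubsets.1 hu).1
  obtain ⟨r, hr, rfl⟩ := Finset.subset_map_iff.1 h1
  exact ⟨r, (map_mem_ssubsets e he).1 hu, rfl⟩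

theorem iun_reindex : iun (fun r => A (r.map e)) t.ssubsets = iun A v.ssubsets := by
  ext x
  constructor
  · rintro ⟨r, hr, hx⟩
    exact ⟨_, (map_mem_ssubsets e he).2 hr, hx⟩
  · rintro ⟨u, hu, hx⟩
    obtain ⟨r, hr, rfl⟩ := exists_map_of_mem e he hu
    exact ⟨r, hr, hx⟩

theorem ifam_reindex (h : IFam M A v.ssubsets) :
    IFam M (fun r => A (r.map e)) t.ssubsets := by
  refine ⟨⟨?_, fun r hr q hq => ?_⟩, fun r hr => h.mem _ ((map_mem_ssubsets e he).2 hr),
    fun r hr q hq => h.mono _ ((map_mem_ssubsets e he).2 hr) _ (Finset.map_subset_map.2 hq)⟩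
  · rw [← map_mem_ssubsets e he, Finset.map_empty]
    exact h.down.1
  · rw [← map_mem_ssubsets e he] at hr ⊢
    exact h.down.2 _ hr _ (Finset.map_subset_map.2 hq)

theorem irefL_reindex (h : IRefL M τ A v.ssubsets) :
    IRefL M τ (fun r => A (r.map e)) t.ssubsets := by
  intro x E hE hEc
  rw [iun_reindex e he] at hE
  obtain ⟨g, hg, h1⟩ := h (e x) E hE hEc
  refine ⟨g, hg, fun r hr a ha har => ?_⟩
  have h2 := h1 _ ((map_mem_ssubsets e he).2 hr) a ha har
  refine ⟨?_, fun hx => h2.2 fun h3 => ?_⟩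
  · change g a ∈ A ((r.erase x).map e)
    rw [Finset.map_erase]
    exact h2.1
  · obtain ⟨y, hy, hyx⟩ := Finset.mem_map.1 h3
    rw [e.injective hyx] at hy
    exact hx hy

theorem iref_reindex (h : IRef M (fun r => A (r.map e)) t.ssubsets) :
    IRef M A v.ssubsets := by
  intro x E hE hEc
  by_cases hx : x ∈ v
  · have h1 : x ∈ t.map e := by
      rw [he]
      exact hx
    obtain ⟨y, -, rfl⟩ := Finset.mem_map.1 h1
    obtain ⟨g, hg, h2⟩ := h y E (by rwa [iun_reindex e he]) hEc
    refine ⟨g, hg, fun u hu a ha hau => ?_⟩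
    obtain ⟨r, hr, rfl⟩ := exists_map_of_mem e he hu
    have h3 := h2 r hr a ha hau
    refine ⟨?_, fun hy => h3.2 fun h4 => hy (Finset.mem_map_of_mem e h4)⟩
    rw [← Finset.map_erase]
    exact h3.1
  · refine ⟨1, M.G.one_mem, fun u hu a _ hau => ⟨?_, fun _ => rfl⟩⟩
    have h1 : x ∉ u := fun h2 => hx ((Finset.mem_ssubsets.1 hu).1 h2)
    rw [Finset.erase_eq_of_notMem h1]
    exact hau

end reindex

variable (M) in
/-- Reflection of the pieces of size `τ` implies full reflection, for the boundaries of the faces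
with at most `n` directions. -/
def FUn (τ : Cardinal.{u}) (n : ℕ) : Prop := ∀ (ι : Type v) (v : Finset ι), v.Nonempty →
  v.card ≤ n → ∀ A : Finset ι → Set C, IFam M A v.ssubsets → IRefL M τ A v.ssubsets →
    IRef M A v.ssubsets

theorem FUn.mono {τ' : Cardinal.{u}} {n n' : ℕ} (h : FUn.{u, v} M τ n) (hτ : τ ≤ τ')
    (hn : n' ≤ n) : FUn.{u, v} M τ' n' :=
  fun ι v hv hvn A hA hR => h ι v hv (hvn.trans hn) A hA (hR.level hτ)

/-- **A uniform bound.** -/
theorem exists_fun (hχ : 0 < M.χ) (n : ℕ)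
    (h : ∀ j, 1 ≤ j → j ≤ n → FU M (Finset.univ : Finset (ULift.{v} (Fin j)))) :
    ∃ τ < M.χ, FUn.{u, v} M τ n := by
  have key : ∀ m ≤ n, ∃ τ < M.χ, FUn.{u, v} M τ m := by
    intro m
    induction m with
    | zero =>
      exact fun _ => ⟨0, hχ, fun ι v hv hv0 => by
        have := Finset.card_pos.2 hv
        omega⟩
    | succ m ih =>
      intro hm
      obtain ⟨τ₁, h1, h2⟩ := ih (Nat.le_of_succ_le hm)
      obtain ⟨τ₂, h3, h4⟩ := h (m + 1) (Nat.le_add_left 1 m) hm
      refine ⟨max τ₁ τ₂, max_lt h1 h3, fun ι v hv hvm A hA hR => ?_⟩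
      rcases Nat.lt_or_ge v.card (m + 1) with h5 | h5
      · exact h2 ι v hv (Nat.lt_succ_iff.1 h5) A hA (hR.level (le_max_left _ _))
      · have h6 : v.card = m + 1 := le_antisymm hvm h5
        let e₀ : ULift.{v} (Fin (m + 1)) ≃ v :=
          (Equiv.ulift.trans (finCongr h6.symm)).trans v.equivFin.symm
        let e : ULift.{v} (Fin (m + 1)) ↪ ι := e₀.toEmbedding.trans (Embedding.subtype _)
        have he : (Finset.univ : Finset (ULift.{v} (Fin (m + 1)))).map e = v := by
          ext x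
          rw [Finset.mem_map]
          constructor
          · rintro ⟨y, -, rfl⟩
            exact (e₀ y).2
          · intro hx
            refine ⟨e₀.symm ⟨x, hx⟩, Finset.mem_univ _, ?_⟩
            change (e₀ (e₀.symm ⟨x, hx⟩) : ι) = x
            rw [Equiv.apply_symm_apply]
        refine iref_reindex e he (h4 _ (ifam_reindex e he hA) (irefL_reindex e he
          (hR.level (le_max_right _ _))))
  exact key n le_rfl

end Vale.Agent.P307.R2.H914
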