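import Vale.Agent.P307.R2.H914.UpLow
import Vale.Agent.P307.R2.H914.FuFin
import Vale.Agent.P307.R2.H578.JR4
import Vale.Agent.P307.R2.H578.JR5
import Vale.Agent.P307.R2.H427.StdG
import Vale.Agent.P307.R2.H732.TxPg

/-!
Joint reflection of the closed traces of an arbitrary boundary in the saturated members.
-/

set_option linter.unusedSectionVars false

universe u v w

open FirstOrder Cardinal Set

namespace Vale.Agent.P307.R2.H914

open Vale.Agent.P307 Vale.Agent.P307.H304 Vale.Agent.P307.R2.H287 Vale.Agent.P307.R2.H1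
  Vale.Agent.P307.R2.H806 Vale.Agent.P307.R2.H971 Vale.Agent.P307.R2.H541
  Vale.Agent.P307.R2.H541.PG Vale.Agent.P307.R2.H533 Vale.Agent.P307.R2.H650
  Vale.Agent.P307.R2.H578 Vale.Agent.P307.R2.H83 Vale.Agent.P307.R2.H732
  Vale.Agent.P307.R2.H427 Language.Structure Language.Substructure
open Vale.Agent.P307.R2.H68 (Clo exists_clo)
open Vale.Agent.P307.R2.H301 (TrN)
open Vale.Agent.P307.R2.H514 (tH)

open scoped Classical

section abs

variable {ι : Type v} {C : Type u} {M : PG C} {τ d : Cardinal.{u}}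
  {A P : Finset ι → Set C} {F : Finset (Finset ι)} {r s : Finset ι} {Q N : Set C}

theorem _root_.Vale.Agent.P307.R2.H578.ShiftD.level {St : Finset ι → Set C}
    {d' : Cardinal.{u}} (h : ShiftD M τ d St F) (hd : d' ≤ d) : ShiftD M τ d' St F := by
  obtain ⟨φ, h1, h2⟩ := h
  exact ⟨φ, h1, fun H hH hHc E hE hEc q hq hqc =>
    h2 H hH hHc E hE (hEc.trans hd) q hq (hqc.trans hd)⟩

/-- An atomic model over a model is this model. -/
theorem atomic_eq {P : Set C} (hP : P ∈ M.S) (h : M.Atomic N P) : N = P := by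
  refine Subset.antisymm (fun x hx => ?_) h.sub
  obtain ⟨B, hB, hBc, hI⟩ := h.iso {x} (singleton_subset_iff.2 hx)
    (small_finite (finite_singleton x))
  obtain ⟨g, hg, h1, h2⟩ := M.sat hP hB hBc (small_finite (finite_singleton x))
  have h3 : g x ∈ P := h2 x rfl
  obtain ⟨k, hk, h4, h5⟩ := hI g hg h1 {g x} (singleton_subset_iff.2 h3)
    (small_finite (finite_singleton _))
  have h6 : k (g x) = g x := h4 _ rfl
  have h7 : k x = g x := h5 x rfl
  have h8 : x = g x := k.injective (h7.trans h6.symm)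
  rw [h8]
  exact h3

/-- The traces of the atomic models, from the shrinking of the isolating sets. -/
theorem sha_of_trN (hτM : τ ≤ M.χ) {j : ℕ}
    (h : ∀ (A : Finset ι → Set C) (S : Finset ι) (c : ι), S.Nonempty →
      (insert c S).card = j → Ext1 M A S c → ∀ N, M.Atomic N (ibd A (insert c S)) →
        ∃ ψ, TrN M τ (ibd A (insert c S)) N ψ) : SHA M τ ι j := by
  intro A S c hE hj N hN
  rcases S.eq_empty_or_nonempty with rfl | hS
  · refine Cl.of_forall fun H _ E hE' hEc => ?_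
    have h1 : ibd A (insert c ∅) = A ∅ := by
      ext x
      constructor
      · rintro ⟨r, hr, hx⟩
        rw [insert_empty_eq, Finset.ssubset_singleton_iff] at hr
        rwa [hr] at hx
      · intro hx
        refine ⟨∅, ?_, hx⟩
        rw [insert_empty_eq, Finset.ssubset_singleton_iff]
    rw [h1] at hN ⊢
    have h2 := atomic_eq (hE.sys.mem (Finset.empty_subset _)) hN
    subst h2
    refine ⟨E, hE', hEc, fun g hg hgE A' hA' hA'c => ⟨1, M.G.one_mem, fun _ _ => rfl,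
      fun x hx => (hgE x hx).symm⟩⟩
  · obtain ⟨ψ, hψ⟩ := h A S c hS hj hE N hN
    refine ⟨ψ, hψ.card, fun H hH hHc E hE' hEc => ?_⟩
    exact hψ.shrink H hH hHc E hE' hEc (hN.iso E (hE'.trans inter_subset_left)
      (hEc.trans_le hτM))

/-- The first family of a scaffold is contained in the last one. -/
theorem _root_.Vale.Agent.P307.R2.H578.Scaf.le {m : ℕ} {P : ℕ → Finset ι → Set C}
    {r : ℕ → Finset ι} {Q : ℕ → Set C} (h : Scaf M A F N m P r Q) : ∀ v ∈ F, A v ⊆ P m v := by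
  have key : ∀ j ≤ m, ∀ v ∈ F, A v ⊆ P j v := by
    intro j
    induction j with
    | zero =>
      intro _ v hv
      rw [h.zero v hv]
    | succ j ih => exact fun hj v hv => (ih (Nat.le_of_lt hj) v hv).trans ((h.blk j hj).le hv)
  exact key m le_rfl

end abs

variable {ι : Type v} {L : Language.{u, u}} {K : AEC L} {ℓ θ τ σ₀ : Cardinal.{u}}
  {κf α : Cardinal.{u} → Cardinal.{u}} {C : Type u} [L.Structure C]

section

variable (h₀ : BasePt K ℓ κf α θ) (hK : K.IsLS ℓ)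
  (hunb : ∀ ν, ν < κf ν ∧ K.CategoricalIn (κf ν)) (hst : Stab K ℓ α (H287.thr κf))
  (hCm : K.mem C) (hs : Sat K θ C) (hCc : #C = Order.succ θ)

include h₀ hK hunb hst hCm hs hCc

/-- **Joint reflection of the closed traces of an arbitrary boundary**, over the closed traces of
the boundary. -/
theorem pg_jrp (hτ : BasePt K ℓ κf α τ) (hτθ : τ < θ)
    (hFr : FreeM (pg h₀ hK hunb hst hCm hs hCc)) {s : Finset ι}
    (hMd : ∀ j, 1 ≤ j → j + 1 < s.card → Md (pg h₀ hK hunb hst hCm hs hCc) ι j)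
    (hTX : ∀ w ∈ s.ssubsets, w.Nonempty → ∀ A : Finset ι → Set C,
      IFam (pg h₀ hK hunb hst hCm hs hCc) A w.ssubsets →
      IRef (pg h₀ hK hunb hst hCm hs hCc) A w.ssubsets →
      ∀ σ < θ, ∀ ρ < θ, (pg h₀ hK hunb hst hCm hs hCc).TmL σ (tH (max ℓ σ)) ρ (ibd A w))
    (hσ₀ : σ₀ < τ) (hFU : ∀ w ∈ s.ssubsets, w.Nonempty → ∀ A : Finset ι → Set C,
      IFam (pg h₀ hK hunb hst hCm hs hCc) A w.ssubsets →
      H83.IRefL (pg h₀ hK hunb hst hCm hs hCc) σ₀ A w.ssubsets →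
      IRef (pg h₀ hK hunb hst hCm hs hCc) A w.ssubsets)
    (hSH : ∀ j < s.card, SHA (pg h₀ hK hunb hst hCm hs hCc) τ ι j) {A : Finset ι → Set C}
    (hA : IFam (pg h₀ hK hunb hst hCm hs hCc) A s.ssubsets)
    (hR : IRef (pg h₀ hK hunb hst hCm hs hCc) A s.ssubsets) :
    JRp (pg h₀ hK hunb hst hCm hs hCc) τ A s.ssubsets (ibd A s) := by
  have hM := pg_calc h₀ hK hunb hst hCm hs hCc
  have hB := pg_big h₀ hK hunb hst hCm hs hCc
  have hτ0 : ℵ₀ ≤ τ := aleph0_le_pt hτ hK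
  have hcard : ∀ v ∈ s.ssubsets, v.card < s.card := fun v hv =>
    Finset.card_lt_card (Finset.mem_ssubsets.1 hv)
  refine jr_stepN hM (pg_twoLv h₀ hK hunb hst hCm hs hCc hτ hτθ) hSH rfl fun d hd => ?_
  have hκ : max d ℓ < τ := max_lt hd hτ.pt.lt
  have hG : ∀ v ∈ s.ssubsets, 2 ≤ v.card → GDI (pg h₀ hK hunb hst hCm hs hCc) ι v.card :=
    fun v hv _ => gdi_of_md hM hB.ls v.card fun j hj hjv => hMd j hj (by
      have := hcard v hv
      omega)
  obtain ⟨τ', hτ', hlel⟩ := exists_lel_low_coh (M := pg h₀ hK hunb hst hCm hs hCc) hM hB hτ0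
    hτθ.le (pg_upAt h₀ hK hunb hst hCm hs hCc hτ hτθ.le) (H := fun σ => tH (max ℓ σ))
    (fun σ hσ => tH_lt hτ hst hσ) s.ssubsets hA.down hG (max d ℓ) hκ
  obtain ⟨σ, hσd⟩ : ∃ σ, σ = max σ₀ (max τ' (max d ℓ)) := ⟨_, rfl⟩
  have hστ : σ < τ := by
    rw [hσd]
    exact max_lt hσ₀ (max_lt hτ' hκ)
  have hσ0σ : σ₀ ≤ σ := by
    rw [hσd]
    exact le_max_left _ _
  have hτ'σ : τ' ≤ σ := by
    rw [hσd]
    exact (le_max_left _ _).trans (le_max_right _ _)
  have hdσ : max d ℓ ≤ σ := by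
    rw [hσd]
    exact (le_max_right _ _).trans (le_max_right _ _)
  have hℓσ : ℓ ≤ σ := (le_max_right _ _).trans hdσ
  have hσθ : σ < θ := hστ.trans hτθ
  obtain ⟨c, hc⟩ := exists_chart h₀ hK hunb hst hCm hs hCc hℓσ hσθ s.ssubsets
  have hgen := c.stdGen h₀ hK hunb hst hCm hs hCc hℓσ hσθ hc fun v hv hv0 A' hA' hR' =>
    hFU v hv hv0 A' hA' (hR'.level hσ0σ)
  have hXc : #(ibd A s) ≤ (pg h₀ hK hunb hst hCm hs hCc).χ := by
    rw [← iun_ssubsets]
    exact card_iun fun v hv => ((pg h₀ hK hunb hst hCm hs hCc).S_card (hA.mem v hv)).le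
  obtain ⟨m, P, r, Q, b, φ, h1, h2, h3, -, h5⟩ := exists_scaf hM hB.ls hFr
    (fun j hj v hv hjv => hMd j hj (by
      have := hcard v hv
      omega)) hgen hA hR hXc
  have hLE := hlel (P m) (c.St b) φ h2 h3 (c.ifam h₀ hK hunb hst hCm hs hCc hℓσ hσθ b hA.down)
    ((c.irefLev h₀ hK hunb hst hCm hs hCc hℓσ hσθ b _).level hτ'σ)
    (fun w hw hw0 σ' hσ' ρ' hρ' => hTX w hw hw0 (P m) (h2.sub (down_ssubsets hw0)
      (H533.ssubsets_sub hA.down hw)) (h3.mono (H533.ssubsets_sub hA.down hw)) σ' (hσ'.trans hτθ) ρ' hρ') h5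
  have hsh : ShiftD (pg h₀ hK hunb hst hCm hs hCc) τ d (c.St b) s.ssubsets :=
    (pg_shift h₀ hK hunb hst hCm hs hCc hℓσ hστ hτθ.le (hτ.pow σ hστ).le
      (c.isStd hτ0 b _)).level ((le_max_left _ _).trans hdσ)
  refine ⟨m, P, r, Q, h1, (shiftN_trans hτ0 (hK.1.trans (le_max_right d ℓ)) (le_max_left d ℓ)
    hsh Subset.rfl hLE fun v hv => ?_).mono fun x hx => ?_⟩
  · rw [← h5.img v hv]
    exact image_congr fun a ha => (h5.umap_eq h2 h3 hv ha).symm
  · rw [← iun_ssubsets] at hx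
    obtain ⟨v, hv, hx⟩ := hx
    exact ⟨v, hv, h1.le v hv hx⟩

/-- **A uniform bound** for the reflection below the faces. -/
theorem pg_fun {k : ℕ} (hMd : ∀ (n : ℕ) (j : ℕ), 1 ≤ j → j ≤ k → Md (pg h₀ hK hunb hst hCm hs hCc)
      (ULift.{v} (Fin n)) j)
    (hFP : ∃ s < (pg h₀ hK hunb hst hCm hs hCc).χ,
      H581.FPr (pg h₀ hK hunb hst hCm hs hCc) s)
    (hT : ∀ (n m : ℕ), m ≤ k + 1 → TX (pg h₀ hK hunb hst hCm hs hCc) (ULift.{v} (Fin n))
      (fun σ => tH (max ℓ σ)) m) :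
    ∃ σ₀ < θ, FUn.{u, v} (pg h₀ hK hunb hst hCm hs hCc) σ₀ (k + 1) := by
  have hM := pg_calc h₀ hK hunb hst hCm hs hCc
  have hB := pg_big h₀ hK hunb hst hCm hs hCc
  have hU := pg_up h₀ hK hunb hst hCm hs hCc
  have hH : ∀ σ < (pg h₀ hK hunb hst hCm hs hCc).χ,
      tH (max ℓ σ) < (pg h₀ hK hunb hst hCm hs hCc).χ :=
    fun σ hσ => tH_lt h₀ hst hσ
  refine exists_fun (M := pg h₀ hK hunb hst hCm hs hCc)
    (aleph0_pos.trans_le (pg h₀ hK hunb hst hCm hs hCc).hχ) (k + 1) fun j hj hjk => ?_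
  have hcard : (Finset.univ : Finset (ULift.{v} (Fin j))).card = j := by
    rw [Finset.card_univ, Fintype.card_ulift, Fintype.card_fin]
  refine fu_of_tx hM hB hU hH (k := k) (fun i hi hik => hMd j i hi hik) hFP
    (Finset.card_pos.1 (by omega)) (by omega) ?_
  exact hT j _ (by omega)

end

end Vale.Agent.P307.R2.H914
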