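import Vale.Agent.P307.R2.H229.Few
import Vale.Agent.P307.R2.H804.IndRel
import Vale.Agent.P307.R2.H287.PgLv
import Vale.Agent.P307.R2.H913.ChnPg

/-!
Strong submodels which are closed under realizations of the types over all their small subsets.
-/

set_option linter.unusedSectionVars false

universe u v

open FirstOrder Cardinal Set

namespace Vale.Agent.P307.R2.H914

open Vale.Agent.P307 Vale.Agent.P307.H304 Vale.Agent.P307.H67 Vale.Agent.P307.R2.H287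
  Vale.Agent.P307.R2.H1 Vale.Agent.P307.R2.H541 Vale.Agent.P307.R2.H971
  Vale.Agent.P307.R2.H804 Language.Structure Language.Substructure

variable {L : Language.{u, u}} {K : AEC L} {ℓ θ τ ρ Λ : Cardinal.{u}}
  {κf α : Cardinal.{u} → Cardinal.{u}} {C : Type u} [L.Structure C]

section

variable (h₀ : BasePt K ℓ κf α θ) (hK : K.IsLS ℓ)
  (hunb : ∀ ν, ν < κf ν ∧ K.CategoricalIn (κf ν)) (hst : Stab K ℓ α (H287.thr κf))
  (hCm : K.mem C) (hs : Sat K θ C) (hCc : #C = Order.succ θ)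

include h₀ hK hunb hst hCm hs hCc

/-- Over a set of size `Λ = Λ ^ ρ`, the `ρ`-tuples in a class have `Λ` many representatives. -/
theorem exists_reps (hρ : ℵ₀ ≤ ρ) (hℓΛ : ℓ ≤ Λ) (hΛθ : Λ < θ) (hΛρ : Λ ^ ρ = Λ) {I : Type u}
    (hI : #I ≤ ρ) {z : Set C} (hz : #z ≤ Λ) (P : Set (I → C)) :
    ∃ Q ⊆ P, #Q ≤ Λ ∧ ∀ c ∈ P, ∃ c' ∈ Q, ∃ h ∈ autG L C, (∀ a ∈ z, h a = a) ∧
      ∀ i, h (c i) = c' i := by
  classical
  have hΛ0 : ℵ₀ ≤ Λ := hK.1.trans hℓΛ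
  have hρΛ : ρ ≤ Λ := by
    refine (cantor ρ).le.trans ?_
    rw [← hΛρ]
    exact power_le_power_right (c := ρ) ((natCast_lt_aleph0 (n := 2)).le.trans hΛ0)
  obtain ⟨t⟩ := exists_tpl' hK hunb
  let μ : Cardinal.{u} := α Λ
  have hΛμ : Λ ≤ μ := (hst Λ hℓΛ).1
  have hμθ : μ < θ := h₀.al Λ hΛθ
  have hℓμ : ℓ ≤ μ := hℓΛ.trans hΛμ
  let m : Cardinal.{u} := max (max θ (thr κf θ)) (thr κf μ)
  obtain ⟨hm, hcat⟩ := hunb m
  let κ : Cardinal.{u} := κf m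
  have hθκ : θ ≤ κ := ((le_max_left _ _).trans (le_max_left _ _)).trans hm.le
  have hθ0 : ℵ₀ ≤ θ := aleph0_le_pt h₀ hK
  obtain ⟨E⟩ := exists_em t κ.ord.ToType
  have hEc : #E.N = κ := E.card_eq (h₀.pt.lt.le.trans hθκ) (mk_ord_toType κ)
  have hne : Nonempty κ.ord.ToType := by
    rw [← mk_ne_zero_iff, mk_ord_toType]
    exact (aleph0_pos.trans_le (hθ0.trans hθκ)).ne'
  have hEs : Sat K θ E.N := h₀.sat hK hunb
    (((le_max_right _ _).trans (le_max_left _ _)).trans (hm.le.trans hEc.ge))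
  obtain ⟨f, hf⟩ := H804.exists_embed_sat h₀ hK hCm hCc E.mem hEs (hθκ.trans hEc.ge)
  have hEμ : thr κf μ ≤ #E.N := (le_max_right _ _).trans (hm.le.trans hEc.ge)
  obtain ⟨Cd, code, hCd, hcode⟩ := exists_code_types hK hunb hℓμ hℓΛ hρ hΛρ E hEμ (ι := I)
    (ζ := z) hI (hI.trans (hρΛ.trans hΛμ)) hz (hz.trans hΛμ) (fun a => f a)
  let F : P → Cd := fun c => code fun i => f (c.1 i)
  have hF : ∀ d : range F, ∃ c : P, F c = d := fun d => d.2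
  choose s hs' using hF
  refine ⟨range fun d : range F => (s d).1, ?_, ?_, fun c hc => ⟨(s ⟨F ⟨c, hc⟩, ⟨c, hc⟩, rfl⟩).1,
    ⟨_, rfl⟩, ?_⟩⟩
  · rintro _ ⟨d, rfl⟩
    exact (s d).2
  · refine mk_range_le.trans ((mk_set_le _).trans hCd)
  have h1 := hcode _ _ (hs' ⟨F ⟨c, hc⟩, ⟨c, hc⟩, rfl⟩).symm
  have hCμ : thr κf μ ≤ #C := ((h₀.pt.thr _ hμθ).le.trans (Order.le_succ θ)).trans hCc.ge
  have hsum : #(I ⊕ z) ≤ Λ := by
    rw [mk_sum, lift_id, lift_id]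
    exact add_le_of_le hΛ0 (hI.trans hρΛ) hz
  set c' := (s ⟨F ⟨c, hc⟩, ⟨c, hc⟩, rfl⟩).1 with hc'
  have h2 : EqS L μ (Sum.elim c fun a : z => (a : C)) (Sum.elim c' fun a : z => (a : C)) := by
    refine (H514.eqS_emb_iff hK hunb hℓμ (hsum.trans hΛμ) f hf hCμ _ _).1 ?_
    have e1 : ∀ c : I → C, (fun i => f (Sum.elim c (fun a : z => (a : C)) i)) =
        Sum.elim (fun i => f (c i)) fun a : z => f a := fun c => by
      funext x
      rcases x with x | x <;> rfl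
    rw [e1, e1]
    exact h1
  obtain ⟨g, hg, hgg⟩ := exists_mem_autG h₀ hK hunb hst hCm hs hCc hℓΛ hΛθ hsum _ _ h2
  exact ⟨g, hg, fun a ha => hgg (Sum.inr ⟨a, ha⟩), fun i => hgg (Sum.inl i)⟩

/-- One step of the closure. -/
theorem exists_reps_step (hρ : ℵ₀ ≤ ρ) (hℓΛ : ℓ ≤ Λ) (hΛθ : Λ < θ) (hΛρ : Λ ^ ρ = Λ)
    {ι : Type v} (A : Finset ι → Set C) (F : Finset (Finset ι)) {z : Set C} (hz : #z ≤ Λ) :
    ∃ T : L.Substructure C, K.le T ∧ z ⊆ T ∧ #T ≤ Λ ∧ ∀ y : Set C, #y ≤ ρ →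
      ∃ t ∈ autG L C, (∀ x ∈ z, t x = x) ∧ ∀ v ∈ F, ∀ a ∈ y, a ∈ A v → t a ∈ A v ∩ T := by
  classical
  have hΛ0 : ℵ₀ ≤ Λ := hK.1.trans hℓΛ
  have h2Λ : (2 : Cardinal.{u}) ^ ρ ≤ Λ := by
    rw [← hΛρ]
    exact power_le_power_right (c := ρ) ((natCast_lt_aleph0 (n := 2)).le.trans hΛ0)
  have hρΛ : ρ ≤ Λ := (cantor ρ).le.trans h2Λ
  let I : Type u := ρ.ord.ToType
  have hI : #I = ρ := mk_ord_toType ρ
  -- the labels: small sets of faces, coded in the universe of `C`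
  let n : ℕ := F.card
  let W : Type u := ULift.{u} (Set (Fin n))
  have hW : #W < ℵ₀ := lt_aleph0_of_finite _
  obtain ⟨en⟩ : Nonempty (Fin n ≃ F) := ⟨F.equivFin.symm⟩
  have hm : #(I → W) ≤ Λ := by
    have h1 : #(I → W) = #W ^ #I := by simp
    rw [h1, hI]
    refine (power_le_power_right (hW.le.trans hΛ0)).trans hΛρ.le
  let P : (I → W) → Set (I → C) := fun m => {c | ∀ j, ∀ v ∈ (m j).down, c j ∈ A (en v)}
  choose Q hQP hQc hQ using fun m => exists_reps h₀ hK hunb hst hCm hs hCc hρ hℓΛ hΛθ hΛρ hI.le hz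
    (P m)
  let U : Set C := range fun p : (Σ m, Q m) × I => (p.1.2 : I → C) p.2
  have hU : #U ≤ Λ := by
    refine mk_range_le.trans ?_
    rw [mk_prod, lift_id, lift_id, mk_sigma]
    refine (mul_le_mul' ((sum_le_sum _ _ hQc).trans ?_) (hI.le.trans hρΛ)).trans
      (mul_eq_self hΛ0).le
    rw [sum_const', ]
    exact (mul_le_mul' hm le_rfl).trans (mul_eq_self hΛ0).le
  obtain ⟨T, hT, hzT, hTc⟩ := hK.2.2 C hCm (z ∪ U)
  refine ⟨T, hT, subset_union_left.trans hzT, hTc.trans (add_le_of_le hΛ0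
    ((mk_union_le _ _).trans (add_le_of_le hΛ0 hz hU)) hℓΛ), fun y hy => ?_⟩
  rcases y.eq_empty_or_nonempty with rfl | hne
  · exact ⟨1, (autG L C).one_mem, fun x _ => rfl, fun v _ a ha => absurd ha (notMem_empty a)⟩
  obtain ⟨c, hc⟩ : ∃ c : I → C, range c = y := by
    have : Nonempty y := hne.to_subtype
    obtain ⟨f₀⟩ := (hy.trans hI.ge : #y ≤ #I)
    have hf : Function.Surjective (Function.invFun f₀) := Function.invFun_surjective f₀.injective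
    set f : I → y := Function.invFun f₀
    exact ⟨fun i => f i, by
      ext x
      constructor
      · rintro ⟨i, rfl⟩
        exact (f i).2
      · intro hx
        obtain ⟨i, hi⟩ := hf ⟨x, hx⟩
        exact ⟨i, by simp [hi]⟩⟩
  let m : I → W := fun j => ⟨{v | c j ∈ A (en v)}⟩
  obtain ⟨c', hc', h, hh, hhz, hhc⟩ := hQ m c fun j v hv => hv
  refine ⟨h, hh, hhz, fun v hv a ha hav => ?_⟩
  rw [← hc] at ha
  obtain ⟨j, rfl⟩ := ha
  have h1 : c' j ∈ A v := by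
    have h2 := hQP m hc' j (en.symm ⟨v, hv⟩) (by
      change c j ∈ A (en (en.symm ⟨v, hv⟩))
      rw [Equiv.apply_symm_apply]
      exact hav)
    rwa [Equiv.apply_symm_apply] at h2
  rw [hhc j]
  exact ⟨h1, hzT (Or.inr ⟨(⟨m, ⟨c', hc'⟩⟩, j), rfl⟩)⟩

/-- **Brute force closed submodels.** -/
theorem exists_brT (hτ : BasePt K ℓ κf α τ) (hτθ : τ ≤ θ) (hℓρ : ℓ ≤ ρ) (hρτ : ρ < τ) :
    ∃ Λ < τ, ∀ {ι : Type v} (A : Finset ι → Set C) (F : Finset (Finset ι)) (e : Set C),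
      #e ≤ ρ → ∃ T : L.Substructure C, K.le T ∧ e ⊆ T ∧ H287.thr κf ρ ≤ #T ∧ #T ≤ Λ ∧
        ∀ q ⊆ (T : Set C), #q ≤ ρ → ∀ y : Set C, #y ≤ ρ → ∃ t ∈ autG L C, (∀ x ∈ q, t x = x) ∧
          ∀ v ∈ F, ∀ a ∈ y, a ∈ A v → t a ∈ A v ∩ T := by
  classical
  have hρ : ℵ₀ ≤ ρ := hK.1.trans hℓρ
  let r : Cardinal.{u} := max ρ (H287.thr κf ρ)
  have hr : r < τ := max_lt hρτ (hτ.pt.thr ρ hρτ)
  have hρr : ρ ≤ r := le_max_left _ _
  let Λ : Cardinal.{u} := 2 ^ r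
  have hrΛ : r < Λ := cantor r
  have hΛτ : Λ < τ := hτ.pow r hr
  have hΛθ : Λ < θ := hΛτ.trans_le hτθ
  have hρΛ : ρ < Λ := hρr.trans_lt hrΛ
  have hℓΛ : ℓ ≤ Λ := hℓρ.trans hρΛ.le
  have hΛ0 : ℵ₀ ≤ Λ := hρ.trans hρΛ.le
  have hΛρ : Λ ^ ρ = Λ := by
    change ((2 : Cardinal.{u}) ^ r) ^ ρ = 2 ^ r
    rw [← power_mul, mul_eq_left (hρ.trans hρr) hρr (aleph0_pos.trans_le hρ).ne']
  refine ⟨Λ, hΛτ, fun {ι} A F e he => ?_⟩
  -- a set of size `Λ` which contains `e`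
  have hΛC : Λ ≤ #C := (hΛθ.le.trans (Order.le_succ θ)).trans hCc.ge
  obtain ⟨e₁, he₁⟩ := le_mk_iff_exists_set.1 hΛC
  let e₀ : Set C := e ∪ e₁
  have he₀ : #e₀ ≤ Λ := (mk_union_le _ _).trans (add_le_of_le hΛ0 (he.trans hρΛ.le) he₁.le)
  have he₀' : Λ ≤ #e₀ := he₁.ge.trans (mk_le_mk_of_subset subset_union_right)
  have hstep : ∀ z : Set C, ∃ T : L.Substructure C, #z ≤ Λ → K.le T ∧ z ⊆ T ∧ #T ≤ Λ ∧
      ∀ y : Set C, #y ≤ ρ → ∃ t ∈ autG L C, (∀ x ∈ z, t x = x) ∧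
        ∀ v ∈ F, ∀ a ∈ y, a ∈ A v → t a ∈ A v ∩ T := by
    intro z
    by_cases hz : #z ≤ Λ
    · obtain ⟨T, hT⟩ := exists_reps_step h₀ hK hunb hst hCm hs hCc hρ hℓΛ hΛθ hΛρ A F hz
      exact ⟨T, fun _ => hT⟩
    · exact ⟨⊤, fun h => absurd h hz⟩
  choose g hg using hstep
  let wf : WellFounded ((· < ·) : SuccTy ρ → SuccTy ρ → Prop) := wellFounded_lt
  let T : SuccTy ρ → L.Substructure C := wf.fix fun x IH =>
    g (e₀ ∪ ⋃ (y : SuccTy ρ) (h : y < x), (IH y h : Set C))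
  let Z : SuccTy ρ → Set C := fun x => e₀ ∪ ⋃ (y : SuccTy ρ) (_ : y < x), (T y : Set C)
  have hT : ∀ x, T x = g (Z x) := fun x => wf.fix_eq _ x
  have hIio : ∀ x : SuccTy ρ, #(Iio x) ≤ ρ := fun x => by
    have h1 := mk_Iio_toType_ord_lt x
    exact Order.lt_succ_iff.1 h1
  have hZc : ∀ x, #(Z x) ≤ Λ := by
    intro x
    induction x using wf.induction with
    | _ x ih =>
      refine (mk_union_le _ _).trans (add_le_of_le hΛ0 he₀ ?_)
      have h1 : (⋃ (y : SuccTy ρ) (_ : y < x), (T y : Set C)) = ⋃ y : Iio x, (T y : Set C) := by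
        ext c
        simp
      rw [h1]
      refine (mk_iUnion_le _).trans ?_
      refine (mul_le_mul' ((hIio x).trans hρΛ.le) (ciSup_le' fun y => ?_)).trans
        (mul_eq_self hΛ0).le
      rw [hT y]
      exact (hg (Z y) (ih y y.2)).2.2.1
  have hTZ : ∀ x, Z x ⊆ T x := fun x => by
    rw [hT x]
    exact (hg (Z x) (hZc x)).2.1
  have hmono : Monotone T := by
    intro y x hyx
    rcases hyx.eq_or_lt with rfl | h
    · exact le_rfl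
    · intro c hc
      exact hTZ x (Or.inr (mem_iUnion₂.2 ⟨y, h, hc⟩))
  have hne : Nonempty (SuccTy ρ) := by
    obtain ⟨x, -⟩ := dir_succTy hρ ∅ (by simp)
    exact ⟨x⟩
  have hle : ∀ x, K.le (T x) := fun x => by
    rw [hT x]
    exact (hg (Z x) (hZc x)).1
  have hU := H913.coe_iSup' T hmono
  refine ⟨⨆ x, T x, AEC.le_iSup_directed T hmono hle, ?_, ?_, ?_, ?_⟩
  · rw [hU]
    exact fun c hc => mem_iUnion.2 ⟨hne.some, hTZ _ (Or.inl (Or.inl hc))⟩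
  · refine ((le_max_right _ _).trans hrΛ.le).trans (he₀'.trans ?_)
    refine mk_le_mk_of_subset (t := ((⨆ x, T x : L.Substructure C) : Set C)) ?_
    rw [hU]
    exact fun c hc => mem_iUnion.2 ⟨hne.some, hTZ _ (Or.inl hc)⟩
  · change #((⨆ x, T x : L.Substructure C) : Set C) ≤ Λ
    rw [hU]
    refine (mk_iUnion_le _).trans ?_
    refine (mul_le_mul' ?_ (ciSup_le' fun y => ?_)).trans (mul_eq_self hΛ0).le
    · rw [mk_succTy]
      exact Order.succ_le_of_lt hρΛ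
    · rw [hT y]
      exact (hg (Z y) (hZc y)).2.2.1
  · intro q hq hqc y hy
    rw [hU] at hq
    choose f hf using fun c : q => mem_iUnion.1 (hq c.2)
    obtain ⟨x, hx⟩ := dir_succTy hρ (range f) (mk_range_le.trans hqc)
    have hqZ : q ⊆ Z x := fun c hc =>
      Or.inr (mem_iUnion₂.2 ⟨f ⟨c, hc⟩, hx _ ⟨_, rfl⟩, hf ⟨c, hc⟩⟩)
    obtain ⟨t, ht, h1, h2⟩ := (hg (Z x) (hZc x)).2.2.2 y hy
    refine ⟨t, ht, fun c hc => h1 c (hqZ hc), fun v hv a ha hav => ?_⟩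
    have h3 := h2 v hv a ha hav
    rw [← hT x] at h3
    refine ⟨h3.1, ?_⟩
    rw [hU]
    exact mem_iUnion.2 ⟨x, h3.2⟩

end

end Vale.Agent.P307.R2.H914
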