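import Vale.Agent.P307.R2.H914.ScLow
import Vale.Agent.P307.R2.H578.JR4

/-!
Joint reflection of the closed traces of the boundaries below arbitrary models, from the generators
of standard families.
-/

set_option linter.unusedSectionVars false

universe u v w

open FirstOrder Cardinal Set

namespace Vale.Agent.P307.R2.H914

open Vale.Agent.P307 Vale.Agent.P307.H304 Vale.Agent.P307.R2.H287 Vale.Agent.P307.R2.H1
  Vale.Agent.P307.R2.H806 Vale.Agent.P307.R2.H971 Vale.Agent.P307.R2.H541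
  Vale.Agent.P307.R2.H541.PG Vale.Agent.P307.R2.H533 Vale.Agent.P307.R2.H650
  Vale.Agent.P307.R2.H578 Vale.Agent.P307.R2.H83 Language.Structure Language.Substructure
open Vale.Agent.P307.R2.H68 (part Blk)

open scoped Classical

variable {ι : Type v} {L : Language.{u, u}} {K : AEC L} {ℓ θ τ σ : Cardinal.{u}}
  {κf α : Cardinal.{u} → Cardinal.{u}} {C : Type u} [L.Structure C]

/-- Images of standard families under automorphisms are standard. -/
theorem isStd_image {St T : Finset ι → Set C} {F F' : Finset (Finset ι)}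
    (h : IsStd K ℓ σ τ C St F) (hF : F' ⊆ F) {g : Equiv.Perm C} (hg : g ∈ autG L C)
    (hT : ∀ v ∈ F', T v = g '' St v) : IsStd K ℓ σ τ C T F' := by
  obtain ⟨t, Ω, i1, i2, E, e, S, Mk, h1, h2, h3⟩ := h
  obtain ⟨f, hf⟩ := hg
  refine ⟨t, Ω, i1, i2, E, f.comp e, S, Mk, h1, fun v hv => ?_, fun v hv => h3 v (hF hv)⟩
  rw [hT v hv, h2 v (hF hv), image_image]
  exact image_congr fun x _ => (hf (e x)).symm

section

variable (h₀ : BasePt K ℓ κf α θ) (hK : K.IsLS ℓ)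
  (hunb : ∀ ν, ν < κf ν ∧ K.CategoricalIn (κf ν)) (hst : Stab K ℓ α (H287.thr κf))
  (hCm : K.mem C) (hs : Sat K θ C) (hCc : #C = Order.succ θ)

include h₀ hK hunb hst hCm hs hCc

/-- The scaffolds of a boundary below a model end with standard families. -/
theorem pg_scaf_std (hF : FreeM (pg h₀ hK hunb hst hCm hs hCc)) {s : Finset ι}
    (hMd : ∀ j, 1 ≤ j → j < s.card → Md (pg h₀ hK hunb hst hCm hs hCc) ι j)
    {β : Type w} {St : (Finset ι → β) → Finset ι → Set C}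
    (hSt : StdGen (pg h₀ hK hunb hst hCm hs hCc) s.powerset St)
    (hstd : ∀ b, IsStd K ℓ σ τ C (St b) s.ssubsets) {A : Finset ι → Set C}
    (hA : IFam (pg h₀ hK hunb hst hCm hs hCc) A s.ssubsets)
    (hR : IRef (pg h₀ hK hunb hst hCm hs hCc) A s.ssubsets) {N : Set C}
    (hN : N ∈ (pg h₀ hK hunb hst hCm hs hCc).S) (hAN : ibd A s ⊆ N) :
    ∃ m P r Q, Scaf (pg h₀ hK hunb hst hCm hs hCc) A s.ssubsets N m P r Q ∧
      IsStd K ℓ σ τ C (P m) s.ssubsets := by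
  have hs' : s.Nonempty := by
    have h1 := hA.down.1
    rw [Finset.mem_ssubsets] at h1
    exact Finset.nonempty_iff_ne_empty.2 h1.ne'
  obtain ⟨m, P, r, Q, b, g, hg, h1, h2⟩ := exists_scaf_top (pg_calc h₀ hK hunb hst hCm hs hCc)
    (pg_big h₀ hK hunb hst hCm hs hCc).ls hF hs' hMd hSt hA hR hN hAN
  exact ⟨m, P, r, Q, h1, isStd_image (hstd b) Finset.Subset.rfl hg h2⟩

/-- **Joint reflection in dimension `n` below arbitrary models.** -/
theorem pg_jrk_low (hτ : BasePt K ℓ κf α τ) (hτθ : τ < θ) {n : ℕ}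
    (hF : FreeM (pg h₀ hK hunb hst hCm hs hCc))
    (hMd : ∀ j, 1 ≤ j → j < n → Md (pg h₀ hK hunb hst hCm hs hCc) ι j)
    (hSt : ∀ s : Finset ι, s.card = n → ∀ d < τ, ∃ σ < τ, d ≤ σ ∧ ℓ ≤ σ ∧
      ∃ (β : Type w) (St : (Finset ι → β) → Finset ι → Set C),
        StdGen (pg h₀ hK hunb hst hCm hs hCc) s.powerset St ∧
          ∀ b, IsStd K ℓ σ τ C (St b) s.ssubsets)
    (hJR : ∀ j < n, JRk (pg h₀ hK hunb hst hCm hs hCc) τ ι j)
    (hSH : ∀ j < n, SHk (pg h₀ hK hunb hst hCm hs hCc) τ ι j) :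
    JRk (pg h₀ hK hunb hst hCm hs hCc) τ ι n := by
  refine pg_jrk h₀ hK hunb hst hCm hs hCc hτ hτθ hJR hSH fun A s hsn hA hR N hN hAN d hd => ?_
  obtain ⟨σ, hσ, hdσ, hℓσ, β, St, h1, h2⟩ := hSt s hsn d hd
  obtain ⟨m, P, r, Q, h3, h4⟩ := pg_scaf_std h₀ hK hunb hst hCm hs hCc hF
    (fun j hj hjs => hMd j hj (hsn ▸ hjs)) h1 h2 hA hR hN hAN
  exact ⟨σ, hσ, hdσ, hℓσ, m, P, r, Q, h3, h4⟩

end

end Vale.Agent.P307.R2.H914
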