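import Vale.Agent.P307.R2.H914.JrPg
import Vale.Agent.P307.R2.H301.Din.RowsW

/-!
The row of the joint reflection in the induction on the dimension.
-/

set_option linter.unusedSectionVars false

universe u

open FirstOrder Cardinal Set

namespace Vale.Agent.P307.R2.H914

open Vale.Agent.P307 Vale.Agent.P307.H304 Vale.Agent.P307.R2.H287 Vale.Agent.P307.R2.H1
  Vale.Agent.P307.R2.H806 Vale.Agent.P307.R2.H971 Vale.Agent.P307.R2.H541
  Vale.Agent.P307.R2.H541.PG Vale.Agent.P307.R2.H533 Vale.Agent.P307.R2.H650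
  Vale.Agent.P307.R2.H578 Vale.Agent.P307.R2.H718 Vale.Agent.P307.R2.H732
  Language.Structure Language.Substructure
open Vale.Agent.P307.R2.H301 (EvM EvL MdK ShEK JRE JRb KnW)
open Vale.Agent.P307.R2.H514 (tH)

open scoped Classical

section abs

variable {C : Type u} {M : PG C} {τ : Cardinal.{u}}

/-- Joint reflection of the closed traces of the faces of all the boundaries of dimension at most
`n`, over the closed traces of the boundary. -/
def JRA (n : ℕ) (M : PG C) (τ : Cardinal.{u}) : Prop :=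
  ∀ (ι : Type u) (A : Finset ι → Set C) (s : Finset ι), s.card ≤ n → IFam M A s.ssubsets →
    IRef M A s.ssubsets → JRp M τ A s.ssubsets (ibd A s)

theorem JRA.jre {n : ℕ} (hM : M.Calc) (h : JRA (n + 1) M τ) : JRE n M τ :=
  fun ι A S c _ hS hE => h ι A (insert c S) (by
    rw [Finset.card_insert_of_notMem hE.notMem]
    omega) hE.fam (hE.ref hM)

end abs

variable {L : Language.{u, u}} {K : AEC L} {ℓ : Cardinal.{u}} {κf α : Cardinal.{u} → Cardinal.{u}}

/-- The bound below the faces, at one base point. -/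
theorem exists_funW {k : ℕ} {θ : Cardinal.{u}} {C : Type u} [L.Structure C]
    (h₀ : BasePt K ℓ κf α θ) (hK : K.IsLS ℓ)
    (hunb : ∀ ν, ν < κf ν ∧ K.CategoricalIn (κf ν)) (hst : Stab K ℓ α (H287.thr κf))
    (hCm : K.mem C) (hs : Sat K θ C) (hCc : #C = Order.succ θ)
    (hFP : H27.FP (pg h₀ hK hunb hst hCm hs hCc))
    (hMd : MdK k (pg h₀ hK hunb hst hCm hs hCc))
    (hT : H732.TXK ℓ (k + 2) (pg h₀ hK hunb hst hCm hs hCc)) :
    ∃ σ₀ < θ, FUn.{u, u} (pg h₀ hK hunb hst hCm hs hCc) σ₀ (k + 1) :=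
  pg_fun h₀ hK hunb hst hCm hs hCc (k := k) (fun n j _ hj => hMd _ j hj) hFP
    fun n m hm => (hT.mono (by omega)) _

/-- **Joint reflection** for all the boundaries of dimension at most `k + 2`. -/
theorem evL_jra {k : ℕ} (hFr : EvM K ℓ κf α fun _ M => FreeM M)
    (hFP : EvM K ℓ κf α fun _ M => H27.FP M) (hMd : EvM K ℓ κf α fun _ M => MdK k M)
    (hT : EvM K ℓ κf α fun _ M => H732.TXK ℓ (k + 2) M)
    (hSh : EvL K ℓ κf α fun _ M τ => ShEK k M τ) :
    EvL K ℓ κf α fun _ M τ => JRA (k + 2) M τ := by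
  obtain ⟨r₁, h1⟩ := (hFr.and hFP).and (hMd.and hT)
  obtain ⟨r₂, h2⟩ := hSh
  refine ⟨max r₁ r₂, fun θ hθ h₀ hK hunb hst C _ hCm hs hCc => ?_⟩
  obtain ⟨⟨h3, h4⟩, h5, h6⟩ := h1 θ (hθ.mono (le_max_left _ _)) h₀ hK hunb hst C hCm hs hCc
  obtain ⟨τ₀, h7, h8⟩ := h2 θ (hθ.mono (le_max_right _ _)) h₀ hK hunb hst C hCm hs hCc
  obtain ⟨σ₀, h9, h10⟩ := exists_funW h₀ hK hunb hst hCm hs hCc h4 h5 h6
  refine ⟨max τ₀ (Order.succ σ₀), max_lt h7 ((Order.succ_le_of_lt (cantor σ₀)).trans_lt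
    (h₀.pow σ₀ h9)), fun τ h11 hτθ hτ => ?_⟩
  have hσ₀ : σ₀ < τ := (Order.lt_succ σ₀).trans_le ((le_max_right _ _).trans h11)
  have hSH := h8 τ ((le_max_left _ _).trans h11) hτθ (hτ.mono (le_max_right _ _))
  intro ι A s hsn hA hR
  have hcard : ∀ v ∈ s.ssubsets, v.card < s.card := fun v hv =>
    Finset.card_lt_card (Finset.mem_ssubsets.1 hv)
  refine pg_jrp h₀ hK hunb hst hCm hs hCc hτ.base hτθ h3 (fun j _ hj => h5 ι j (by omega))
    (fun w hw _ A' hA' hR' σ hσ ρ hρ => ?_) hσ₀ (fun w hw hw0 A' hA' hR' =>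
      h10 ι w hw0 (by have := hcard w hw; omega) A' hA' hR') (fun j hj => ?_) hA hR
  · have h12 := h6 ι A' w w.ssubsets (by have := hcard w hw; omega) Finset.Subset.rfl hA' hR'
      σ hσ ρ hρ
    rwa [iun_ssubsets] at h12
  · refine sha_of_trN hτθ.le fun A' S c hS0 hSj hE N hN => hSH ι A' S c hS0 ?_ hE N hN
    rw [Finset.card_insert_of_notMem hE.notMem] at hSj
    omega

/-- **The row** of the joint reflection. -/
theorem evL_jre {k : ℕ} (h : KnW K ℓ κf α k) (hSh : EvL K ℓ κf α fun _ M τ => ShEK k M τ) :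
    EvL K ℓ κf α fun _ M τ => JRE (k + 1) M τ := by
  obtain ⟨r, h1⟩ := evL_jra h.free h.fp h.md h.tx hSh
  refine ⟨r, fun θ hθ h₀ hK hunb hst C _ hCm hs hCc => ?_⟩
  obtain ⟨τ₀, h2, h3⟩ := h1 θ hθ h₀ hK hunb hst C hCm hs hCc
  exact ⟨τ₀, h2, fun τ h4 h5 h6 => (h3 τ h4 h5 h6).jre (pg_calc h₀ hK hunb hst hCm hs hCc)⟩

end Vale.Agent.P307.R2.H914
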