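import Vale.Agent.P307.R2.H83.Last
import Vale.Agent.P307.R2.H732.Up

/-!
Coherent isomorphisms onto a family which reflects only for the pieces of a fixed size: all the
sizes stay below a cardinal which is closed under the bounds.
-/

set_option linter.unusedSectionVars false

universe u v

open FirstOrder Set Cardinal Function

namespace Vale.Agent.P307.R2.H914

open Vale.Agent.P307.R2.H541 Vale.Agent.P307.R2.H541.PG Vale.Agent.P307.R2.H533
  Vale.Agent.P307.R2.H83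

open scoped Classical

section abs

variable {ι : Type v} {C : Type u} {M : PG C}

/-- Independence of sets of size `σ < κ` is decided by the pieces of a size below `κ`. -/
def UpAt (M : PG C) (κ : Cardinal.{u}) : Prop := ∀ σ < κ, ∃ τ < κ, ∀ P ∈ M.S, ∀ a b : Set C,
  #a ≤ σ → #b ≤ σ → M.IndL τ P a b → M.Ind P a b

variable {A A' : Finset ι → Set C} {F F' : Finset (Finset ι)} {s : Finset ι}
  {τ τ' lam κ : Cardinal.{u}}

/-- **Coherent isomorphisms onto a family which reflects at one level**, below `κ`. -/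
theorem exists_lel_low (hM : M.Calc) (hB : M.Big) (hκ : ℵ₀ ≤ κ) (hκM : κ ≤ M.χ)
    (hU : UpAt M κ) {H : Cardinal.{u} → Cardinal.{u}}
    (hH : ∀ σ < κ, H σ < κ) (F : Finset (Finset ι)) (hF : Down F)
    (hG : ∀ v ∈ F, 2 ≤ v.card → GDI M ι v.card) : ∀ lam < κ, ∃ τ < κ,
      ∀ (A A' : Finset ι → Set C) (f : C → C), IFam M A F → IRef M A F → IFam M A' F →
        IRefL M τ A' F →
        (∀ w ∈ F, w.Nonempty → ∀ σ < κ, ∀ ρ < M.χ, M.TmL σ (H σ) ρ (ibd A w)) →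
        (∀ v ∈ F, ∃ g ∈ M.G, (∀ a ∈ A v, g a = f a) ∧ g '' A v = A' v) →
          M.LEL lam f (iun A F) := by
  have key : ∀ F', Down F' → F' ⊆ F → ∀ lam < κ, ∃ τ < κ,
      ∀ (A A' : Finset ι → Set C) (f : C → C), IFam M A F → IRef M A F → IFam M A' F →
        IRefL M τ A' F →
        (∀ w ∈ F, w.Nonempty → ∀ σ < κ, ∀ ρ < M.χ, M.TmL σ (H σ) ρ (ibd A w)) →
        (∀ v ∈ F, ∃ g ∈ M.G, (∀ a ∈ A v, g a = f a) ∧ g '' A v = A' v) →
          M.LEL lam f (iun A F') := by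
    refine down_induction (p := fun F' => F' ⊆ F → ∀ lam < κ, ∃ τ < κ,
      ∀ (A A' : Finset ι → Set C) (f : C → C), IFam M A F → IRef M A F → IFam M A' F →
        IRefL M τ A' F →
        (∀ w ∈ F, w.Nonempty → ∀ σ < κ, ∀ ρ < M.χ, M.TmL σ (H σ) ρ (ibd A w)) →
        (∀ v ∈ F, ∃ g ∈ M.G, (∀ a ∈ A v, g a = f a) ∧ g '' A v = A' v) →
          M.LEL lam f (iun A F')) ?_ ?_
    · intro hsub lam hlam
      refine ⟨lam, hlam, fun A A' f _ _ _ _ _ hf E hE _ => ?_⟩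
      obtain ⟨g, hg, h1, -⟩ := hf ∅ (hsub (Finset.mem_singleton_self ∅))
      refine ⟨g, hg, fun a ha => ?_⟩
      obtain ⟨v, hv, hav⟩ := hE ha
      rw [Finset.mem_singleton] at hv
      subst hv
      exact h1 a hav
    intro F' w hF' hwF hw ih hsub' lam hlam
    have hlamM : lam < M.χ := hlam.trans_le hκM
    have hsub : F' ⊆ F := (Finset.subset_insert w F').trans hsub'
    have hwF' : w ∈ F := hsub' (Finset.mem_insert_self w F')
    have hw0 : w.Nonempty := by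
      rw [Finset.nonempty_iff_ne_empty]
      rintro rfl
      exact hwF hF'.1
    obtain ⟨τ₂, hτ₂, h2⟩ := ih hsub (lam + H lam) (add_lt_of_lt hκ hlam (hH lam hlam))
    obtain ⟨τ₃, hτ₃, h3⟩ := hU lam hlam
    refine ⟨max τ₂ (τ₃ + τ₃), max_lt hτ₂ (add_lt_of_lt hκ hτ₃ hτ₃),
      fun A A' f hA hR hA' hR' hT hf => ?_⟩
    have hLE : M.LEL (lam + H lam) f (iun A F') :=
      h2 A A' f hA hR hA' (hR'.level (le_max_left _ _)) hT hf
    obtain ⟨N, hN, hNw⟩ := exists_hull hA hR hwF' hw0 (hG w hwF')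
    obtain ⟨gw, hgw, hw1, hw2⟩ := hf w hwF'
    have hRF : IRef M A F' := hR.mono hsub
    have hbw : ibd A w ⊆ A w := fun x hx => hNw (hN.sub hx)
    intro E₀ hE₀ hE₀c
    have hac : #(E₀ ∩ iun A F' : Set C) ≤ lam := (mk_le_mk_of_subset inter_subset_left).trans hE₀c
    have hec : #(E₀ ∩ A w : Set C) ≤ lam := (mk_le_mk_of_subset inter_subset_left).trans hE₀c
    obtain ⟨g0, hg0, hg0f⟩ := hLE (E₀ ∩ iun A F') inter_subset_right
      (hac.trans (self_le_add_right _ _))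
    have ht : gw⁻¹ * g0 ∈ M.G := M.G.mul_mem (M.G.inv_mem hgw) hg0
    -- the type over the boundary
    have hbd : ∀ A₁ ⊆ ibd A w, #A₁ < M.χ → ∃ h ∈ M.G, (∀ x ∈ A₁, h x = x) ∧
        ∀ x ∈ E₀ ∩ iun A F', h x = (gw⁻¹ * g0) x := by
      intro A₁ hA₁ hA₁c
      refine hT w hwF' hw0 lam hlam #A₁ hA₁c (E₀ ∩ iun A F') hac _ ht ?_ A₁ hA₁ le_rfl
      intro z hz hzc
      obtain ⟨g, hg, hgf⟩ := hLE ((E₀ ∩ iun A F') ∪ z) (union_subset inter_subset_right
        (hz.trans (ibd_sub_iun hw))) ((mk_union_le _ _).trans (add_le_add hac hzc))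
      refine ⟨gw⁻¹ * g, M.G.mul_mem (M.G.inv_mem hgw) hg, fun x hx => ?_, fun x hx => ?_⟩
      · rw [Equiv.Perm.mul_apply, hgf x (Or.inr hx), ← hw1 x (hbw (hz hx)), inv_ap]
      · rw [Equiv.Perm.mul_apply, Equiv.Perm.mul_apply, hgf x (Or.inl hx), hg0f x hx]
    -- the type over the hull
    have hhull : ∀ D ⊆ N, #D < M.χ → ∃ h ∈ M.G, (∀ x ∈ D, h x = x) ∧
        ∀ x ∈ E₀ ∩ iun A F', h x = (gw⁻¹ * g0) x := by
      intro D hD hDc
      obtain ⟨b, hb, hbc, hiso'⟩ := hN.iso D hD hDc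
      have hiso := hiso'.lift (hRF.tv hF' hwF hw) hb hbc
      obtain ⟨h, hh, h4, h5⟩ := hbd b hb hbc
      obtain ⟨h', hh', h6, h7⟩ := hiso h⁻¹ (M.G.inv_mem hh) (fun x hx => fix_inv (h4 x hx))
        (E₀ ∩ iun A F') inter_subset_right (hac.trans_lt hlamM)
      refine ⟨h * h', M.G.mul_mem hh hh', fun x hx => ?_, fun x hx => ?_⟩
      · rw [Equiv.Perm.mul_apply, h7 x hx, ap_inv]
      · rw [Equiv.Perm.mul_apply, h6 x hx, h5 x hx]
    obtain ⟨g1, hg1, h4, h5⟩ := hB.conj hN.mem (hac.trans_lt hlamM) (gw⁻¹ * g0 : Equiv.Perm C)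
      hhull
    -- independence on both sides
    have hind : M.Ind N (E₀ ∩ A w) (E₀ ∩ iun A F') :=
      (ind_hull hA hR hwF' hF' hsub hwF hN.sub hNw).mono inter_subset_right inter_subset_right
    have himg : gw '' ibd A w = ibd A' w := image_ibd hA hwF' hf hw1
    have hcomp : ((gw⁻¹ : Equiv.Perm C) ∘ gw) = id := by
      funext a
      exact inv_ap gw a
    have hind' : M.Ind (gw '' N) (gw '' (E₀ ∩ A w)) (g0 '' (E₀ ∩ iun A F')) := by
      refine h3 _ (M.S_inv hgw hN.mem) _ _ (mk_image_le.trans hec) (mk_image_le.trans hac) ?_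
      refine (IRefL.indL_hull hA' (hR'.level (le_max_right _ _)) hwF' hF' hsub hwF
        (N := gw '' N) ?_ ?_).mono ?_ ?_
      · rw [← himg]
        exact image_mono hN.sub
      · rw [← hw2]
        exact image_mono hNw
      · rw [← hw2]
        exact image_mono inter_subset_right
      · rintro _ ⟨c, hc, rfl⟩
        obtain ⟨v, hv, hcv⟩ := hc.2
        obtain ⟨gv, hgv, hv1, hv2⟩ := hf v (hsub hv)
        refine ⟨v, hv, ?_⟩
        rw [hg0f c hc, ← hv1 c hcv, ← hv2]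
        exact mem_image_of_mem gv hcv
    have hind2 := hind'.smul (M.G.inv_mem hgw)
    rw [← image_comp, hcomp, image_id, ← image_comp, hcomp, image_id] at hind2
    obtain ⟨p, hpN, -, hp⟩ := hM.based hN.mem (E := E₀ ∩ A w) (hec.trans_lt hlamM)
    obtain ⟨h, hh, -, h6, h7⟩ := hp g1 hg1 (fun x hx => h4 x (hpN hx)) (E₀ ∩ iun A F')
      (hac.trans_lt hlamM) hind (hind2.mono Subset.rfl (by
        rintro _ ⟨x, hx, rfl⟩
        rw [h5 x hx]
        exact ⟨g0 x, mem_image_of_mem g0 hx, rfl⟩))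
    refine ⟨gw * h, M.G.mul_mem hgw hh, fun x hx => ?_⟩
    have h8 := hE₀ hx
    rw [iun_insert] at h8
    rcases h8 with h8 | h8
    · rw [Equiv.Perm.mul_apply, h6 x ⟨hx, h8⟩, hw1 x h8]
    · rw [Equiv.Perm.mul_apply, h7 x ⟨hx, h8⟩, h5 x ⟨hx, h8⟩, Equiv.Perm.mul_apply, ap_inv,
        hg0f x ⟨hx, h8⟩]
  exact key F hF Finset.Subset.rfl

/-- The form for coherent isomorphisms. -/
theorem exists_lel_low_coh (hM : M.Calc) (hB : M.Big) (hκ : ℵ₀ ≤ κ) (hκM : κ ≤ M.χ)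
    (hU : UpAt M κ) {H : Cardinal.{u} → Cardinal.{u}}
    (hH : ∀ σ < κ, H σ < κ) (F : Finset (Finset ι)) (hF : Down F)
    (hG : ∀ v ∈ F, 2 ≤ v.card → GDI M ι v.card) : ∀ lam < κ, ∃ τ < κ,
      ∀ (A A' : Finset ι → Set C) (φ : Finset ι → Equiv.Perm C), IFam M A F → IRef M A F →
        IFam M A' F → IRefL M τ A' F →
        (∀ w ∈ F, w.Nonempty → ∀ σ < κ, ∀ ρ < M.χ, M.TmL σ (H σ) ρ (ibd A w)) →
        Coh M F A A' φ → M.LEL lam (umap F A φ) (iun A F) := by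
  intro lam hlam
  obtain ⟨τ, hτ, h⟩ := exists_lel_low hM hB hκ hκM hU hH F hF hG lam hlam
  refine ⟨τ, hτ, fun A A' φ hA hR hA' hR' hT hφ => h A A' _ hA hR hA' hR' hT fun v hv => ?_⟩
  exact ⟨φ v, hφ.mem v hv, fun _ ha => hφ.umap_eq hA hR hv ha, hφ.img v hv⟩

end abs

end Vale.Agent.P307.R2.H914
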