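import Vale.Agent.P307.R2.H83.Scaf
import Vale.Agent.P307.R2.H578.JR2

/-!
Scaffolds of a boundary with a given top model: the top is treated as one more face, so the last
family of the scaffold is the image of a standard family under one element of the group.
-/

set_option linter.unusedSectionVars false

universe u v w

open Set Cardinal Function

namespace Vale.Agent.P307.R2.H914

open Vale.Agent.P307.R2.H541 Vale.Agent.P307.R2.H541.PG Vale.Agent.P307.R2.H533
  Vale.Agent.P307.R2.H650 Vale.Agent.P307.R2.H578 Vale.Agent.P307.R2.H83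

open scoped Classical

variable {ι : Type v} {C : Type u} {M : PG C} {β : Type w}
  {F F' : Finset (Finset ι)} {A A' P P' B : Finset ι → Set C} {s r : Finset ι} {Q N : Set C}

/-- Restriction of one block of a scaffold to a smaller family of faces, and change of the old
family outside the faces. -/
theorem blk_restrict (h : Blk M A P F r Q) (hF' : Down F') (hsub : F' ⊆ F) (hr : r ∈ F')
    (hA : ∀ v ∈ F', A v = A' v) : Blk M A' P F' r Q := by
  have hfam : IFam M A F' := h.fam.sub hF' hsub
  refine ⟨⟨hF', fun t ht => ?_, fun t ht q hq => ?_⟩, ?_, hr, ?_, h.memB, ?_, ?_, ?_, ?_⟩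
  · rw [← hA t ht]
    exact hfam.mem t ht
  · rw [← hA t ht, ← hA q (hF'.2 t ht q hq)]
    exact hfam.mono t ht q hq
  · exact (h.ref.mono hsub).congr hF' hA
  · rw [← iun_congr hA]
    exact (iun_mono hsub).trans h.sub
  · rw [← hA r hr]
    exact h.subB
  · rw [← hA r hr]
    exact h.ind
  · intro v hv hrv
    rw [← hA v hv]
    exact h.same v (hsub hv) hrv
  · intro v hv hrv
    have h1 : nbd A' P r v = nbd A P r v := by
      unfold nbd
      rw [hA v hv]
    rw [h1]
    exact h.atomic v (hsub hv) hrv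

/-- Restriction of a scaffold from a cube to its proper faces: the blocks over the top are left
out. -/
theorem scaf_ssubsets (hs : s.Nonempty) {m : ℕ} {Pf : ℕ → Finset ι → Set C} {rf : ℕ → Finset ι}
    {Qf : ℕ → Set C} (h : Scaf M A s.powerset N m Pf rf Qf) :
    ∃ (m' : ℕ) (P' : ℕ → Finset ι → Set C) (r' : ℕ → Finset ι) (Q' : ℕ → Set C),
      Scaf M A s.ssubsets N m' P' r' Q' ∧ ∀ v ∈ s.ssubsets, P' m' v = Pf m v := by
  have hsub : s.ssubsets ⊆ s.powerset := fun v hv =>
    Finset.mem_powerset.2 (Finset.mem_ssubsets.1 hv).1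
  induction m with
  | zero =>
    refine ⟨0, Pf, rf, Qf, ⟨fun v hv => h.zero v (hsub hv), fun i hi => absurd hi (Nat.not_lt_zero i),
      fun i hi => absurd hi (Nat.not_lt_zero i), fun i hi => absurd hi (Nat.not_lt_zero i)⟩,
      fun v _ => rfl⟩
  | succ m ih =>
    obtain ⟨m', P', r', Q', h1, h2⟩ := ih ⟨h.zero, fun i hi => h.blk i (Nat.lt_succ_of_lt hi),
      fun i hi => h.ne i (Nat.lt_succ_of_lt hi), fun i hi => h.sub i (Nat.lt_succ_of_lt hi)⟩
    have hb := h.blk m (Nat.lt_succ_self m)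
    by_cases hr : rf m = s
    · refine ⟨m', P', r', Q', h1, fun v hv => ?_⟩
      rw [h2 v hv]
      refine (hb.same v (hsub hv) fun h3 => ?_).symm
      rw [hr] at h3
      exact (Finset.mem_ssubsets.1 hv).2 h3
    · have hr' : rf m ∈ s.ssubsets := Finset.mem_ssubsets.2
        (lt_of_le_of_ne (Finset.mem_powerset.1 hb.mem_r) hr)
      have hb' : Blk M (P' m') (Pf (m + 1)) s.ssubsets (rf m) (Qf m) :=
        blk_restrict hb (down_ssubsets hs) hsub hr' fun v hv => (h2 v hv).symm
      refine ⟨m' + 1, _, _, _, scaf_snoc h1 hb' (h.ne m (Nat.lt_succ_self m))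
        (h.sub m (Nat.lt_succ_self m)), fun v _ => ?_⟩
      have h3 : ¬ m' + 1 ≤ m' := by omega
      simp only [if_neg h3]

/-- A boundary with a model above it is a cube with an arbitrary top. -/
theorem cube_of_top (hs : s.Nonempty) (hA : IFam M A s.ssubsets) (hR : IRef M A s.ssubsets)
    {T : Set C} (hT : T ∈ M.S) (hAT : ibd A s ⊆ T) :
    IFam M (update A s T) s.powerset ∧ IRef M (update A s T) s.powerset := by
  have hne : ∀ v ∈ s.ssubsets, v ≠ s := fun v hv => (Finset.mem_ssubsets.1 hv).ne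
  have hA1 : ∀ v ∈ s.ssubsets, A v = update A s T v := fun v hv => (update_of_ne (hne v hv) _ _).symm
  have hcase : ∀ v ∈ s.powerset, v = s ∨ v ∈ s.ssubsets := fun v hv =>
    (eq_or_ne v s).imp id fun h => Finset.mem_ssubsets.2
      (lt_of_le_of_ne (Finset.mem_powerset.1 hv) h)
  have hfam : IFam M (update A s T) s.powerset := by
    refine ⟨down_powerset s, fun t ht => ?_, fun t ht q hq => ?_⟩
    · rcases hcase t ht with rfl | ht
      · rwa [update_self]
      · rw [← hA1 t ht]
        exact hA.mem t ht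
    · rcases hcase t ht with rfl | ht
      · rcases hcase q (Finset.mem_powerset.2 hq) with rfl | hq'
        · exact Subset.rfl
        · rw [← hA1 q hq', update_self]
          exact fun x hx => hAT ⟨q, Finset.mem_ssubsets.1 hq', hx⟩
      · have hq' := hA.down.2 t ht q hq
        rw [← hA1 t ht, ← hA1 q hq']
        exact hA.mono t ht q hq
  refine ⟨hfam, fun x E hE hEc => ?_⟩
  by_cases hx : x ∈ s
  · -- first the proper faces
    have hsx : s.erase x ∈ s.ssubsets := Finset.mem_ssubsets.2 (Finset.erase_ssubset hx)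
    obtain ⟨g, hg, h1⟩ := hR x (E ∩ iun A s.ssubsets) inter_subset_right
      (small_inter_left _ hEc)
    have hgm : ∀ e ∈ E ∩ iun A s.ssubsets, g e ∈ A (s.erase x) := by
      rintro e ⟨he, v, hv, hev⟩
      exact hA.mono _ hsx _ (Finset.erase_subset_erase x (Finset.mem_ssubsets.1 hv).1)
        (h1 v hv e ⟨he, v, hv, hev⟩ hev).1
    obtain ⟨k, hk, h2, h3⟩ := M.sat (hA.mem _ hsx) (A := g '' (E ∩ iun A s.ssubsets))
      (B := g '' E) (by
        rintro _ ⟨e, he, rfl⟩
        exact hgm e he) (small_image g (small_inter_left _ hEc)) (small_image g hEc)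
    refine ⟨k * g, M.G.mul_mem hk hg, fun v hv e he hev => ?_⟩
    rcases hcase v hv with rfl | hv
    · rw [← hA1 _ hsx]
      exact ⟨h3 _ (mem_image_of_mem g he), fun h4 => absurd hx h4⟩
    · rw [← hA1 v hv] at hev
      have he' : e ∈ E ∩ iun A s.ssubsets := ⟨he, v, hv, hev⟩
      have h4 := h1 v hv e he' hev
      rw [← hA1 _ (hA.down.2 v hv _ (Finset.erase_subset x v)), Equiv.Perm.mul_apply,
        h2 _ (mem_image_of_mem g he')]
      exact h4
  · -- nothing moves
    refine ⟨1, M.G.one_mem, fun v hv e _ hev => ?_⟩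
    have h4 : v.erase x = v := Finset.erase_eq_of_notMem fun h5 =>
      hx (Finset.mem_powerset.1 hv h5)
    rw [h4]
    exact ⟨hev, fun _ => rfl⟩

/-- **Scaffolds below a model.** The last family is the image of a standard family. -/
theorem exists_scaf_top (hM : M.Calc) (hls : ∀ X : Set C, #X ≤ M.χ → ∃ N ∈ M.S, X ⊆ N)
    (hF : FreeM M) (hs : s.Nonempty) (hMd : ∀ j, 1 ≤ j → j < s.card → Md M ι j)
    {St : (Finset ι → β) → Finset ι → Set C} (hSt : StdGen M s.powerset St)
    (hA : IFam M A s.ssubsets) (hR : IRef M A s.ssubsets) {T : Set C} (hT : T ∈ M.S)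
    (hAT : ibd A s ⊆ T) :
    ∃ (m : ℕ) (P : ℕ → Finset ι → Set C) (r : ℕ → Finset ι) (Q : ℕ → Set C)
      (b : Finset ι → β) (g : Equiv.Perm C), g ∈ M.G ∧ Scaf M A s.ssubsets T m P r Q ∧
        ∀ v ∈ s.ssubsets, P m v = g '' St b v := by
  obtain ⟨h1, h2⟩ := cube_of_top hs hA hR hT hAT
  obtain ⟨m, P, r, Q, b, φ, h3, h4, -, -, h5⟩ := exists_scaf hM hls hF
    (fun j hj v hv hjv => hMd j hj (hjv.trans_le (Finset.card_le_card (Finset.mem_powerset.1 hv))))
    hSt h1 h2 (M.S_card hT).le
  obtain ⟨m', P', r', Q', h6, h7⟩ := scaf_ssubsets hs h3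
  have hss : s ∈ s.powerset := Finset.mem_powerset_self s
  have hsub : ∀ v ∈ s.ssubsets, v ∈ s.powerset := fun v hv =>
    Finset.mem_powerset.2 (Finset.mem_ssubsets.1 hv).1
  refine ⟨m', P', r', Q', b, (φ s)⁻¹, M.G.inv_mem (h5.mem s hss), ⟨fun v hv => ?_, h6.blk, h6.ne,
    h6.sub⟩, fun v hv => ?_⟩
  · rw [h6.zero v hv, update_of_ne (Finset.mem_ssubsets.1 hv).ne]
  · rw [h7 v hv, ← h5.img v (hsub v hv), image_image]
    have h8 : ∀ a ∈ P m v, ((φ s)⁻¹ : Equiv.Perm C) (φ v a) = a := by
      intro a ha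
      rw [← h5.coh s hss v (Finset.mem_powerset.1 (hsub v hv)) a ha, inv_ap]
    rw [image_congr h8, image_id']

end Vale.Agent.P307.R2.H914
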