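import Vale.Agent.P307.R2.H914.LelLow

/-!
Independence of small sets over strong submodels of size `θ` is decided by pieces of a size below
any smaller base point.
-/

set_option linter.unusedSectionVars false

universe u

open FirstOrder Cardinal Set

namespace Vale.Agent.P307.R2.H914

open Vale.Agent.P307 Vale.Agent.P307.H304 Vale.Agent.P307.R2.H287 Vale.Agent.P307.R2.H1
  Vale.Agent.P307.R2.H971 Vale.Agent.P307.R2.H804 Language.Structure Language.Substructure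
open Vale.Agent.P307.R2.H541

variable {L : Language.{u, u}} {K : AEC L} {ℓ θ τ : Cardinal.{u}}
  {κf α : Cardinal.{u} → Cardinal.{u}} {C : Type u} [L.Structure C]

section

variable (h₀ : BasePt K ℓ κf α θ) (hK : K.IsLS ℓ)
  (hunb : ∀ ν, ν < κf ν ∧ K.CategoricalIn (κf ν)) (hst : Stab K ℓ α (H287.thr κf))
  (hCm : K.mem C) (hs : Sat K θ C) (hCc : #C = Order.succ θ)

theorem lvl_mono {ν μ ρ : Cardinal.{u}} (h : Lvl ℓ κf α ν μ ρ τ) (hτ : τ ≤ θ) :
    Lvl ℓ κf α ν μ ρ θ :=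
  ⟨h.hℓ, h.tB, h.νμ, h.opB, h.limB, h.lt.trans_le hτ, h.thr.trans hτ, h.thr'.trans hτ,
    h.thr''.trans hτ⟩

include h₀ hK hunb hst hCm hs hCc

/-- Independence of small sets is decided by the pieces of size `limB κf μ`. -/
theorem ind_of_indL_lvl {σ ν μ ρ : Cardinal.{u}} (h1 : σ + σ ≤ ν) (hl : Lvl ℓ κf α ν μ ρ θ)
    {P a b : Set C} (hP : P ∈ (pg h₀ hK hunb hst hCm hs hCc).S) (ha : #a ≤ σ) (hb : #b ≤ σ)
    (hI : (pg h₀ hK hunb hst hCm hs hCc).IndL (limB κf μ) P a b) :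
    (pg h₀ hK hunb hst hCm hs hCc).Ind P a b := by
  obtain ⟨D, hD, hDc, rfl⟩ := hP
  have hθ := aleph0_le_pt h₀ hK
  have hμ0 := hl.hμ hK
  have hσν : σ ≤ ν := (self_le_add_right _ _).trans h1
  have hσμ : σ ≤ μ := hσν.trans hl.νμ
  have hσ : σ < θ := hσμ.trans_lt (hl.μΛ hunb)
  have hlim : limB κf μ < θ := hl.limB.trans_lt hl.lt
  have hbθ : #b < θ := hb.trans_lt hσ
  obtain ⟨g, hg, hgD, hg1⟩ := pg_free h₀ hK hunb hst hCm hs hCc hD hDc (E := a) (Z := b)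
    (ha.trans_lt hσ) hbθ.le
  have hg' : g⁻¹ ∈ autG L C := inv_mem hg
  have hgD' : ∀ x ∈ (D : Set C), g⁻¹ x = x := fun x hx => PG.fix_inv (hgD x hx)
  have h3 := hg1.smul (M := pg h₀ hK hunb hst hCm hs hCc) hg'
  have h4 : (g⁻¹ : Equiv.Perm C) '' (D : Set C) = D := by
    ext x
    constructor
    · rintro ⟨y, hy, rfl⟩
      rw [hgD' y hy]
      exact hy
    · intro hx
      exact ⟨x, hx, hgD' x hx⟩
  have h5 : (g⁻¹ : Equiv.Perm C) '' (g '' a) = a := by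
    ext x
    constructor
    · rintro ⟨_, ⟨y, hy, rfl⟩, rfl⟩
      rw [PG.inv_ap]
      exact hy
    · intro hx
      exact ⟨g x, mem_image_of_mem g hx, PG.inv_ap g x⟩
  rw [h4, h5] at h3
  -- the two copies of `b`
  have h6 := ind_of_indL h₀ hK hunb hst hCm hs hCc hDc hl hI (ι := b) (ζ := a)
    (hb.trans hσμ) (ha.trans hσμ) (fun x => x) (fun x => Or.inr x.2) (fun x => x)
    (fun x => Or.inr x.2)
  have h7 := ind_of_indL h₀ hK hunb hst hCm hs hCc hDc hl (h3.indL hlim) (ι := b) (ζ := a)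
    (hb.trans hσμ) (ha.trans hσμ) (fun x => g⁻¹ x) (fun x => Or.inr (mem_image_of_mem _ x.2))
    (fun x => x) (fun x => Or.inr x.2)
  have hR := refl_big h₀ hK hunb hl D hD hDc
  obtain ⟨e, he⟩ := hg'
  obtain ⟨k, hk1, hk2⟩ := exists_aut h₀ hK hunb hl hCm hs hCc D hD hDc
    (ι := a ⊕ b) (by
      rw [mk_sum, lift_id, lift_id]
      exact (add_le_add ha hb).trans h1) (Sum.elim (fun x : a => (x : C)) fun x : b => (x : C))
    (Sum.elim (fun x : a => (x : C)) fun x : b => g⁻¹ x) (by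
    intro ξ y hξ hy
    have h8 := H804.Ind.uniq hμ0 (hl.μρ hunb) hl.opB (hb.trans hσμ) hR h6 h7
      (fun ζ' y' hζ' hy' => by
        have h9 := H804.EqS.equiv hμ0 (mk_sum_le' hμ0 hζ' (hb.trans hσμ)) e
          (Sum.elim y' fun x : b => (x : C))
        refine h9.subset ?_
        rintro _ ⟨z | x, rfl⟩
        · refine ⟨Sum.inl z, Prod.ext rfl ?_⟩
          change e (y' z) = y' z
          rw [he]
          exact hgD' _ (hy' z)
        · refine ⟨Sum.inr x, Prod.ext rfl ?_⟩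
          exact he x) (ζ := ξ ⊕ a) (mk_sum_le' hμ0 hξ (ha.trans hσμ))
      (Sum.elim y fun x : a => (x : C)) (by
        rintro (z | x)
        · exact Or.inl (hy z)
        · exact Or.inr ⟨x, rfl⟩)
    refine h8.subset ?_
    rintro _ ⟨z | x | x, rfl⟩
    · exact ⟨Sum.inl (Sum.inl z), rfl⟩
    · exact ⟨Sum.inl (Sum.inr x), rfl⟩
    · exact ⟨Sum.inr x, rfl⟩)
  -- back by `k`
  let k' : Equiv.Perm C := k.toEquiv
  have hkG : k' ∈ autG L C := mem_autG k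
  have hkG' : (k'⁻¹ : Equiv.Perm C) ∈ autG L C := inv_mem hkG
  have hk3 : ∀ x y, k x = y → (k'⁻¹ : Equiv.Perm C) y = x := by
    rintro x _ rfl
    exact PG.inv_ap k' x
  have h8 := h3.smul (M := pg h₀ hK hunb hst hCm hs hCc) hkG'
  have h9 : (k'⁻¹ : Equiv.Perm C) '' (D : Set C) = D := by
    ext x
    constructor
    · rintro ⟨y, hy, rfl⟩
      rw [hk3 y y (hk1 y hy)]
      exact hy
    · intro hx
      exact ⟨x, hx, hk3 x x (hk1 x hx)⟩
  have h10 : (k'⁻¹ : Equiv.Perm C) '' a = a := by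
    ext x
    constructor
    · rintro ⟨y, hy, rfl⟩
      rw [hk3 y y (hk2 (Sum.inl ⟨y, hy⟩))]
      exact hy
    · intro hx
      exact ⟨x, hx, hk3 x x (hk2 (Sum.inl ⟨x, hx⟩))⟩
  have h11 : (k'⁻¹ : Equiv.Perm C) '' ((g⁻¹ : Equiv.Perm C) '' b) = b := by
    ext x
    constructor
    · rintro ⟨_, ⟨y, hy, rfl⟩, rfl⟩
      rw [hk3 y (g⁻¹ y) (hk2 (Sum.inr ⟨y, hy⟩))]
      exact hy
    · intro hx
      exact ⟨g⁻¹ x, mem_image_of_mem _ hx, hk3 x _ (hk2 (Sum.inr ⟨x, hx⟩))⟩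
  rw [h9, h10, h11] at h8
  exact h8

/-- Independence of the sets of size below a base point `τ` is decided by the pieces of a size
below `τ`. -/
theorem pg_upAt (hτ : BasePt K ℓ κf α τ) (hτθ : τ ≤ θ) :
    UpAt (pg h₀ hK hunb hst hCm hs hCc) τ := by
  intro σ hσ
  obtain ⟨ν, μ, ρ, h1, -, hl⟩ := exists_lvl hτ (σ := σ + σ)
    (add_lt_of_lt (aleph0_le_pt hτ hK) hσ hσ)
  refine ⟨limB κf μ, hl.limB.trans_lt hl.lt, fun P hP a b ha hb hI => ?_⟩
  exact ind_of_indL_lvl h₀ hK hunb hst hCm hs hCc h1 (lvl_mono hl hτθ) hP ha hb hI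

end

end Vale.Agent.P307.R2.H914
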